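import Vale.Agent.P366K.Defs
import Vale.Agent.P366F.Defs

/-!
# P366DB: the calibration and the bounds for the source. Statements.
-/

open MeasureTheory Filter Topology Set
open scoped ContDiff
open Vale.Agent.P366M Vale.Agent.P366K
open Vale.Agent.P366MM (sq Lf Ins rq)
open Vale.Agent.P366F (Dat)

noncomputable section

namespace Vale.Agent.P366DB

variable {n : ℕ} {M : Type} [Mfe n M]

/-- there are almost optimal fields which are a fixed proper fraction of `Z` far out -/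
def Opt (D : Exterior n M) (R1 : ℝ) (Z : Fin n → M → ℝ) : Prop := ∃ a : ℝ, 0 ≤ a ∧ a < 1 ∧
  ∀ A, ENNReal.ofReal A < D.Amin → ∃ Y, CV ∞ Y ∧ (∀ x : M, R1 ≤ ‖px x‖ → ∀ i, Y i x = a * Z i x) ∧
    (∀ x ∈ Ins D R1, sq D.g x (fun i => Y i x) ≤ 1) ∧ A < Lf D R1 Y

/-- **CAL2**: the calibration with almost optimal fields -/
def CAL2 : Prop := ∀ (n : ℕ) (M : Type) [Mfe n M] (D : Exterior n M) (R : ℝ), 3 ≤ n → D.IsAF →
  ∃ R1 R2 Z, R ≤ R1 ∧ Cal D R1 R2 Z ∧ Opt D R1 Z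

/-- **SRC**: the divergence of `p` is the source -/
def SRC : Prop := ∀ (n : ℕ) (M : Type) [Mfe n M] (Z : Dat n M) (m : ℝ) (P : Fin n → ℝ)
  (κ R1 R2 ε c l : ℝ) (Zc : Fin n → M → ℝ) (W : Type) [MeasurableSpace W] (π : W → M)
  (ν : W → Fin n → ℝ) (α β : Measure W) (η : Measure M), Eqc Z.D m P κ →
  Mm Z.D m P κ R1 R2 ε Zc π ν α β η c l → Rp Z.D ε π ν α Z.N Z.X →
  ∀ e ∈ At M, ∀ φ, P366.Stmt.Smooth φ → HasCompactSupport φ →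
    -∫ y in Z.Om e, Z.pφ e φ y = ∫ w, e.source.indicator (fun x => φ (e x)) (π w) ∂β

/-- **BV**: the bounds for the source on the manifold -/
def BV : Prop := ∀ (n : ℕ) (M : Type) [Mfe n M] (D : Exterior n M) (m : ℝ) (P : Fin n → ℝ)
  (κ R1 R2 ε c l : ℝ) (Zc : Fin n → M → ℝ) (W : Type) [MeasurableSpace W] (π : W → M)
  (ν : W → Fin n → ℝ) (α β : Measure W) (η : Measure M), Eqc D m P κ → Cal D R1 R2 Zc →
  Opt D R1 Zc → Mm D m P κ R1 R2 ε Zc π ν α β η c l → (∀ᵐ w ∂β, ‖px (π w)‖ < R1) ∧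
  ∀ φ : M → ℝ, Smooth φ → HasCompactSupport φ → (∀ x, 0 ≤ φ x) →
    ∫ w, φ (π w) ∂β ≤ c * κ * ∫ x in {x | 0 ≤ D.F x}, gn D.g φ x * dens D.g x ∧
    ∀ V : Set M, IsOpen V → IsPreconnected V → V ⊆ Us D π β →
      (∃ R, ∀ x : M, R < ‖px x‖ → x ∈ V) → tsupport φ ⊆ {x | 0 < D.F x} →
      ∫ w, φ (π w) ∂β ≤ c * κ * ∫ x in Vᶜ, gn D.g φ x * dens D.g x

/-- **DB**: the fields `db1` and `db2` of `Dat.Wk` -/
def DB : Prop := ∀ (n : ℕ) (M : Type) [Mfe n M] (Z : Dat n M) (m : ℝ) (P : Fin n → ℝ)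
  (κ R1 R2 ε c l : ℝ) (Zc : Fin n → M → ℝ) (W : Type) [MeasurableSpace W] (π : W → M)
  (ν : W → Fin n → ℝ) (α β : Measure W) (η : Measure M), Eqc Z.D m P κ → Cal Z.D R1 R2 Zc →
  Opt Z.D R1 Zc → Mm Z.D m P κ R1 R2 ε Zc π ν α β η c l → Rp Z.D ε π ν α Z.N Z.X →
  Z.U ⊆ Us Z.D π β → Z.κ = c * κ →
  (∀ e ∈ At M, ∀ φ, P366.Stmt.Smooth φ → HasCompactSupport φ → (∀ y, 0 ≤ φ y) →
    -∫ y in Z.Om e, Z.pφ e φ y ≤
      Z.κ * ∫ y in Z.Om e, P366Z.gn (Z.g e) φ y * P366Z.dens (Z.g e) y) ∧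
  ∀ V : Set M, IsOpen V → IsPreconnected V → V ⊆ Z.U → (∃ R, ∀ x : M, R < ‖px x‖ → x ∈ V) →
    ∀ e ∈ At M, ∀ φ, P366.Stmt.Smooth φ → HasCompactSupport φ → tsupport φ ⊆ Z.Oi e →
      (∀ y, 0 ≤ φ y) → -∫ y, Z.pφ e φ y ≤
        Z.κ * ∫ y in {y | e.symm y ∉ V}, P366Z.gn (Z.g e) φ y * P366Z.dens (Z.g e) y

end Vale.Agent.P366DB
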