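import Vale.Agent.P366K.Defs
import Vale.Agent.P366MM.Mm
import Vale.Agent.P366OC.Oc

/-!
# P366DB: the variations form a linear space
-/

open MeasureTheory Metric Set Filter Topology
open scoped ContDiff
open Vale.Agent.P366M Vale.Agent.P366K
open Vale.Agent.P366.Stmt (E BigO flx sphInt sph len)
open Vale.Agent.P366MM

noncomputable section

namespace Vale.Agent.P366DB

section Eu

variable {n : ℕ} {R a b q : ℝ} {f f' u : E n → ℝ}

/-- `u = a f + b f'` far out -/
def Cb (R a b : ℝ) (f f' u : E n → ℝ) : Prop := ∀ y, R < ‖y‖ →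
  ContDiffAt ℝ ∞ f y ∧ ContDiffAt ℝ ∞ f' y ∧ u y = a * f y + b * f' y

theorem Cb.pd (h : Cb R a b f f' u) (i : Fin n) :
    Cb R a b (P366.Stmt.pd i f) (P366.Stmt.pd i f') (P366.Stmt.pd i u) := fun y hy => by
  have d1 := (h y hy).1.differentiableAt (by simp)
  have d2 := (h y hy).2.1.differentiableAt (by simp)
  refine ⟨P366Z.contDiffAt_pd (h y hy).1 (by simp) i, P366Z.contDiffAt_pd (h y hy).2.1 (by simp) i,
    ?_⟩
  rw [P366Z.pd_congr (((isOpen_lt continuous_const continuous_norm).eventually_mem hy).mono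
    fun z hz => (h z hz).2.2), P366Z.pd_add (d1.const_mul a) (d2.const_mul b),
    P366Z.pd_const_mul, P366Z.pd_const_mul]

theorem Cb.bo (h : Cb R a b f f' u) (k : BigO q f) (k' : BigO q f') : BigO q u :=
  P366OC.bo_congr (P366OC.bo_add
    (P366OC.bo_mul (P366OC.bo_lim (tendsto_const_nhds (x := a))) k (zero_add q).ge)
    (P366OC.bo_mul (P366OC.bo_lim (tendsto_const_nhds (x := b))) k' (zero_add q).ge))
    ((P366OC.ev R).mono fun y hy => (h y hy).2.2)

theorem Cb.add {h h' v : E n → ℝ} (k : Cb R a b f f' u) (l : Cb R a b h h' v) :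
    Cb R a b (fun y => f y + h y) (fun y => f' y + h' y) fun y => u y + v y := fun y hy =>
  ⟨(k y hy).1.add (l y hy).1, (k y hy).2.1.add (l y hy).2.1, by
    simp only [(k y hy).2.2, (l y hy).2.2]; ring⟩

theorem Cb.sub {h h' v : E n → ℝ} (k : Cb R a b f f' u) (l : Cb R a b h h' v) :
    Cb R a b (fun y => f y - h y) (fun y => f' y - h' y) fun y => u y - v y := fun y hy =>
  ⟨(k y hy).1.sub (l y hy).1, (k y hy).2.1.sub (l y hy).2.1, by
    simp only [(k y hy).2.2, (l y hy).2.2]; ring⟩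

theorem Cb.half (k : Cb R a b f f' u) :
    Cb R a b (fun y => f y / 2) (fun y => f' y / 2) fun y => u y / 2 := fun y hy =>
  ⟨(k y hy).1.div_const 2, (k y hy).2.1.div_const 2, by simp only [(k y hy).2.2]; ring⟩

theorem Cb.sum {F F' U : Fin n → E n → ℝ} (k : ∀ j, Cb R a b (F j) (F' j) (U j)) :
    Cb R a b (fun y => ∑ j, F j y) (fun y => ∑ j, F' j y) fun y => ∑ j, U j y := fun y hy =>
  ⟨ContDiffAt.sum fun j _ => (k j y hy).1, ContDiffAt.sum fun j _ => (k j y hy).2.1, by
    simp only [fun j => (k j y hy).2.2, Finset.sum_add_distrib, Finset.mul_sum]⟩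

theorem Cb.ite (k : Cb R a b f f' u) (p : Prop) [Decidable p] :
    Cb R a b (fun y => if p then f y else 0) (fun y => if p then f' y else 0)
      fun y => if p then u y else 0 := by
  split_ifs
  exacts [k, fun y _ => ⟨contDiffAt_const, contDiffAt_const, by simp⟩]

theorem flx_lin {W W' V : Fin n → E n → ℝ} {m m' : ℝ} (h : ∀ i, Cb R a b (W i) (W' i) (V i))
    (k : Tendsto (flx W) atTop (𝓝 m)) (k' : Tendsto (flx W') atTop (𝓝 m')) :
    Tendsto (flx V) atTop (𝓝 (a * m + b * m')) := by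
  refine ((k.const_mul a).add (k'.const_mul b)).congr' ?_
  filter_upwards [eventually_gt_atTop R, eventually_gt_atTop 0] with r r1 r0
  have e : ∀ θ : sphere (0 : E n) 1, ‖r • (θ : E n)‖ = r := fun θ => by
    rw [norm_smul, norm_eq_of_mem_sphere, mul_one, Real.norm_of_nonneg r0.le]
  have : IsFiniteMeasure (P366.Stmt.vol n).toSphere := by rw [P366Z.vol_eq]; infer_instance
  have i1 : ∀ U : Fin n → E n → ℝ, (∀ i y, R < ‖y‖ → ContDiffAt ℝ ∞ (U i) y) → Integrable (fun θ :
      sphere (0 : E n) 1 => ∑ i, U i (r • θ.1) * ((r • θ.1) i / len (r • θ.1)))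
      (P366.Stmt.vol n).toSphere := fun U hU => by
    simp only [len, e]
    refine Continuous.integrable_of_hasCompactSupport (continuous_finsetSum _ fun i _ =>
      Continuous.mul (continuous_iff_continuousAt.2 fun θ => ?_) (by fun_prop))
      (HasCompactSupport.of_compactSpace _)
    exact (hU i _ (by rwa [e])).continuousAt.comp (f := fun θ : sphere (0 : E n) 1 => r • θ.1)
      (by fun_prop)
  have e2 : sph (P366.Stmt.vol n) r (fun x => ∑ i, V i x * (x i / len x)) =
      a * sph (P366.Stmt.vol n) r (fun x => ∑ i, W i x * (x i / len x)) +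
        b * sph (P366.Stmt.vol n) r (fun x => ∑ i, W' i x * (x i / len x)) := by
    rw [sph, sph, sph, ← integral_const_mul, ← integral_const_mul, ← integral_add
      ((i1 W fun i y hy => (h i y hy).1).const_mul a)
      ((i1 W' fun i y hy => (h i y hy).2.1).const_mul b)]
    refine integral_congr_ae (.of_forall fun θ => ?_)
    simp only [fun i => (h i (r • θ.1) (by rwa [e])).2.2, Finset.mul_sum, ← Finset.sum_add_distrib]
    exact Finset.sum_congr rfl fun i _ => by ring
  simp only [flx, sphInt, e2]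
  ring

end Eu

variable {n : ℕ} {M : Type} [Mfe n M] {h k h' k' : Fld n M} {dE dE' l l' ε R1 : ℝ}
  {dP dP' : Fin n → ℝ} {D : Exterior n M} {Z Y Y' : Fin n → M → ℝ}

/-- a linear combination -/
abbrev lc (a b : ℝ) (h h' : Fld n M) : Fld n M := fun y i j => a * h y i j + b * h' y i j

theorem sym_lc (a b : ℝ) (hh : Sym h) (hh' : Sym h') : Sym (lc a b h h') :=
  ⟨(SmT.smul cd_const hh.sm).add (SmT.smul cd_const hh'.sm), fun x i j => by
    simp only [lc, hh.sy x i j, hh'.sy x i j]⟩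

theorem cb_fe (a b : ℝ) (hh : Sym h) (hh' : Sym h') (i j : Fin n) : Cb (R0 M) a b
    (fun y => fe h y i j) (fun y => fe h' y i j) fun y => fe (lc a b h h') y i j := fun _ hy =>
  ⟨hh.sm.fj_at hy i j, hh'.sm.fj_at hy i j, rfl⟩

theorem var0_lc (a b : ℝ) (v : Var0 h k dE dP) (w : Var0 h' k' dE' dP') :
    Var0 (lc a b h h') (lc a b k k') (a * dE + b * dE') fun i => a * dP i + b * dP' i := by
  have c := cb_fe a b v.sh w.sh
  have d := cb_fe a b v.sk w.sk
  refine ⟨sym_lc a b v.sh w.sh, sym_lc a b v.sk w.sk, fun i j s t => ?_,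
    flx_lin (fun i => (Cb.sum fun j => ((c i j).pd j).sub ((c j j).pd i)).half) v.en w.en,
    fun i => flx_lin (fun j => (d i j).sub ((Cb.sum fun s => d s s).ite _)) (v.mo i) (w.mo i)⟩
  obtain ⟨v1, v2, v3, v4, v5⟩ := v.dec i j s t
  obtain ⟨w1, w2, w3, w4, w5⟩ := w.dec i j s t
  exact ⟨(c i j).bo v1 w1, ((c i j).pd s).bo v2 w2, (((c i j).pd s).pd t).bo v3 w3,
    (d i j).bo v4 w4, ((d i j).pd s).bo v5 w5⟩

theorem lin_lc (hR : REP) (a b : ℝ) (hh : Sym h) (hk : Sym k) (hh' : Sym h') (hk' : Sym k') (x : M)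
    (e : Fin n → ℝ) : lin D.g D.K (lc a b h h') (lc a b k k') x e =
      a * lin D.g D.K h k x e + b * lin D.g D.K h' k' x e := by
  obtain ⟨h1, h2, -⟩ := (hR n M D.g D.K h k D.F D.met ⟨D.smK, D.syK⟩ hh hk D.dom.1).2.2.2.2
    h' k' a b hh' hk' x
  simp only [lin, h1, h2, add_mul, Finset.sum_add_distrib, mul_add, Finset.mul_sum, mul_assoc]
  ring

theorem dth_lc (hR : REP) (a b : ℝ) (hh : Sym h) (hk : Sym k) (hh' : Sym h') (hk' : Sym k') {x : M}
    (hx : D.F x = 0) : dth D.g D.K D.F (lc a b h h') (lc a b k k') x =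
      a * dth D.g D.K D.F h k x + b * dth D.g D.K D.F h' k' x :=
  ((hR n M D.g D.K h k D.F D.met ⟨D.smK, D.syK⟩ hh hk D.dom.1).2.2.2.2
    h' k' a b hh' hk' x).2.2 (D.dom.2.1 x hx)

theorem ar_lc (g : Fld n M) (a b : ℝ) (x : M) (e : Fin n → ℝ) :
    ar g (lc a b h h') x e = a * ar g h x e + b * ar g h' x e := by
  simp only [ar, tr, lc, add_mul, mul_add, Finset.sum_add_distrib, mul_left_comm _ a,
    mul_left_comm _ b, mul_assoc, ← Finset.mul_sum]
  ring

theorem gp_lc (g : Fld n M) (a b : ℝ) (x : M) (e : Fin n → ℝ) :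
    gp g (fun i y => a * Y i y + b * Y' i y) x e = a * gp g Y x e + b * gp g Y' x e := by
  simp only [gp, add_mul, mul_add, Finset.sum_add_distrib, Finset.mul_sum]
  exact congrArg₂ _ (Finset.sum_congr rfl fun i _ => Finset.sum_congr rfl fun j _ => by ring)
    (Finset.sum_congr rfl fun i _ => Finset.sum_congr rfl fun j _ => by ring)

theorem dm_lc (m : ℝ) (P : Fin n → ℝ) (a b : ℝ) :
    dm m P (a * dE + b * dE') (fun i => a * dP i + b * dP' i) =
      a * dm m P dE dP + b * dm m P dE' dP' := by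
  simp only [dm, mul_add, Finset.sum_add_distrib, mul_left_comm _ a, mul_left_comm _ b,
    ← Finset.mul_sum]
  ring

theorem var_lc (hR : REP) (a b : ℝ) (v : Var D ε h k dE dP l) (w : Var D ε h' k' dE' dP' l') :
    Var D ε (lc a b h h') (lc a b k k') (a * dE + b * dE') (fun i => a * dP i + b * dP' i)
      (a * l + b * l') := by
  refine ⟨var0_lc a b v.toVar0 w.toVar0, fun δ hδ => ?_⟩
  have p0 : 0 < |a| + |b| + 1 := by positivity
  obtain ⟨S, hS⟩ := v.lim _ (div_pos hδ p0)
  obtain ⟨S', hS'⟩ := w.lim _ (div_pos hδ p0)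
  refine ⟨max S S', fun x hx e he => ?_⟩
  have h1 := hS x ((le_max_left _ _).trans_lt hx) e he
  have h2 := hS' x ((le_max_right _ _).trans_lt hx) e he
  rw [lin_lc hR a b v.sh v.sk w.sh w.sk, show wt ε x * (a * lin D.g D.K h k x e +
    b * lin D.g D.K h' k' x e) - (a * l + b * l') = a * (wt ε x * lin D.g D.K h k x e - l) +
      b * (wt ε x * lin D.g D.K h' k' x e - l') by ring]
  refine (abs_add_le _ _).trans ?_
  rw [abs_mul, abs_mul]
  have h3 := mul_div_cancel₀ δ p0.ne'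
  nlinarith [mul_le_mul_of_nonneg_left h1 (abs_nonneg a), mul_le_mul_of_nonneg_left h2
    (abs_nonneg b), div_pos hδ p0]

theorem sym_zero : Sym (fun _ _ _ => 0 : Fld n M) := ⟨smT_zero, fun _ _ _ => rfl⟩

theorem lc_zero (h h' : Fld n M) : lc 0 0 h h' = fun _ _ _ => 0 := by
  funext y i j
  simp [lc]

theorem lin_zero (hR : REP) (x : M) (e : Fin n → ℝ) :
    lin D.g D.K (fun _ _ _ => 0) (fun _ _ _ => 0) x e = 0 := by
  simpa [lc_zero] using lin_lc (D := D) hR 0 0 sym_zero sym_zero sym_zero sym_zero x e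

theorem dth_zero (hR : REP) {x : M} (hx : D.F x = 0) :
    dth D.g D.K D.F (fun _ _ _ => 0) (fun _ _ _ => 0) x = 0 := by
  simpa [lc_zero] using dth_lc (D := D) hR 0 0 sym_zero sym_zero sym_zero sym_zero hx

theorem var_zero (hR : REP) : Var D ε (fun _ _ _ => 0) (fun _ _ _ => 0) 0 (fun _ => 0) 0 := by
  have z : ∀ W : Fin n → E n → ℝ, (∀ i y, W i y = 0) → Tendsto (flx W) atTop (𝓝 0) := fun W hW =>
    tendsto_const_nhds.congr fun r => by simp [flx, sphInt, sph, hW]
  refine ⟨⟨sym_zero, sym_zero, fun i j a b => ?_, z _ fun i y => ?_, fun i => z _ fun j y => ?_⟩,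
    fun δ hδ => ⟨0, fun x _ e _ => by simp [lin_zero hR, hδ.le]⟩⟩
  · have p : ∀ a : Fin n, P366.Stmt.pd a (fun _ : E n => (0 : ℝ)) = fun _ => 0 := fun a =>
      funext (P366Z.pd_const 0 a)
    simp only [fe, p]
    exact ⟨P366OC.bo_zero, P366OC.bo_zero, P366OC.bo_zero, P366OC.bo_zero, P366OC.bo_zero⟩
  · simp [fe, P366Z.pd_const]
  · simp [fe]

theorem tf_lc {a b : ℝ} (ha : 0 ≤ a) (hb : 0 ≤ b) (hY : Tf R1 Z Y) (hY' : Tf R1 Z Y') :
    Tf R1 Z fun i y => a * Y i y + b * Y' i y := by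
  obtain ⟨s, s0, hs⟩ := hY.far
  obtain ⟨t, t0, ht⟩ := hY'.far
  exact ⟨(CV.smul cd_const hY.sm).add (CV.smul cd_const hY'.sm), a * s + b * t, by positivity,
    fun x hx i => by rw [hs x hx, ht x hx]; ring⟩

theorem tf_zero : Tf R1 Z fun _ _ => 0 := ⟨cv_zero, 0, le_rfl, fun _ _ _ => (zero_mul _).symm⟩

theorem int_max (D : Exterior n M) (R : ℝ) (hY : CV ∞ Y) :
    IntegrableOn (fun x => max (dv D.g Y x) 0 * dens D.g x) (Ins D R) :=
  (((D.met.sm_dv hY).cont.max continuous_const).mul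
    D.met.sm_dens.cont).continuousOn.integrableOn_compact (cpt_ins D R)

/-- the lower bound is concave -/
theorem lf_lc {a b : ℝ} (ha : 0 ≤ a) (hb : 0 ≤ b) (hR : 0 < R1) (hY : CV ∞ Y) (hY' : CV ∞ Y') :
    a * Lf D R1 Y + b * Lf D R1 Y' ≤ Lf D R1 fun i y => a * Y i y + b * Y' i y := by
  have h1 : CV ∞ fun i x => a * Y i x := CV.smul cd_const hY
  have h2 : CV ∞ fun i x => b * Y' i x := CV.smul cd_const hY'
  have h3 := setIntegral_mono_on (int_max D R1 (h1.add h2)) (((int_max D R1 hY).const_mul a).add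
    ((int_max D R1 hY').const_mul b)) (meas_ins D R1) fun x _ => by
      simp only [Pi.add_apply, D.met.dv_add (h1.dv (by simp) x) (h2.dv (by simp) x), dv_const_mul,
        ← mul_assoc, ← add_mul]
      refine mul_le_mul_of_nonneg_right (max_le (add_le_add
        (mul_le_mul_of_nonneg_left (le_max_left _ _) ha)
        (mul_le_mul_of_nonneg_left (le_max_left _ _) hb)) (by positivity)) (dens_nonneg _ _)
  rw [integral_add' ((int_max D R1 hY).const_mul a) ((int_max D R1 hY').const_mul b),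
    integral_const_mul, integral_const_mul] at h3
  unfold Lf
  rw [fx_lin D.met hR hY hY']
  linarith

theorem lf_zero (hR : 0 < R1) : Lf D R1 (fun _ _ => 0) = 0 := by
  have e : ∀ x, dv D.g (fun _ _ => 0) x = 0 := fun x => by
    simpa using dv_const_mul (g := D.g) (x := x) 0 fun _ _ => 0
  simp [Lf, fx_eq D.met hR cv_zero, e]

end Vale.Agent.P366DB
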