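import Vale.Agent.P366F.Ks
import Vale.Agent.P366TR.Kit

/-!
# P366DB: multipliers with `c = 0` and `N = 0` vanish
-/

open MeasureTheory Filter Topology Set
open scoped ContDiff
open Vale.Agent.P366M Vale.Agent.P366K
open Vale.Agent.P366F (Mu)

noncomputable section

namespace Vale.Agent.P366DB

variable {n : ℕ} {M : Type} [Mfe n M]

theorem cp_end (hR : REP) (A : Mu n M) (hA : A.Ok) {N : M → ℝ} {X : Fin n → M → ℝ}
    (hr : A.Rp N X) {h k : Fld n M} (hv : Var A.D A.ε h k 0 0 1) (c0 : A.c = 0)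
    (hN : ∀ x, 0 < A.D.F x → N x = 0) : False := by
  have H := hA.mm
  have := H.fα
  have := H.fβ
  have := H.fη
  have hF := A.D.dom.1
  have b0 : A.β = 0 := by
    have h1 := H.mass
    rw [c0, zero_mul] at h1
    exact Measure.measure_univ_eq_zero.1 ((measureReal_eq_zero_iff (measure_ne_top _ _)).1 h1)
  have a0 : A.α = 0 := by
    have h1 := (hr.rep (fun x => (wt A.ε x)⁻¹) (fun _ _ => 0)
      ((P366K3.cont_wt A.ε).inv₀ fun x => (P366K3.wt_pos _ x).ne')
      (fun e _ i => by
        have : repC e (fun _ _ => (0 : ℝ)) i = fun _ => 0 := by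
          funext y; simp [repC]
        rw [this]; exact contDiff_const)
      ⟨1, fun x _ => ⟨by
        rw [abs_of_pos (inv_pos.2 (P366K3.wt_pos _ x)), mul_inv_cancel₀ (P366K3.wt_pos _ x).ne'],
        by simp [covNorm]⟩⟩).2
    have h2 : ∫ x in {x | 0 ≤ A.D.F x}, (N x * (wt A.ε x)⁻¹ + ∑ j, X j x * 0) * dens A.D.g x = 0 := by
      refine setIntegral_eq_zero_of_ae_eq_zero ?_
      filter_upwards [hF.llip.ae_pd_zero 0] with x k1 k2
      rcases (show 0 ≤ A.D.F x from k2).eq_or_lt with k3 | k3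
      · obtain ⟨i, hi⟩ := A.D.dom.2.1 x k3.symm
        exact (hi (k1 k3.symm i)).elim
      · simp [hN x k3]
    rw [h2] at h1
    have h3 : ∀ w, wt A.ε (A.π w) * ((wt A.ε (A.π w))⁻¹ + ∑ j, 0 * A.ν w j) = 1 := fun w => by
      simp [mul_inv_cancel₀ (P366K3.wt_pos A.ε (A.π w)).ne']
    simp only [h3, integral_const, smul_eq_mul, mul_one] at h1
    exact Measure.measure_univ_eq_zero.1 ((measureReal_eq_zero_iff (measure_ne_top _ _)).1 h1)
  have e0 : A.η = 0 := by
    obtain ⟨R, hR'⟩ := A.D.dom.2.2.2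
    obtain ⟨χ, s1, s2, -, -, s3⟩ := exists_cut (isCompact_px M R) isOpen_univ (subset_univ _)
    obtain ⟨R', -, r⟩ := bdd_px s2
    have h1 := P366TR.id2 (R := R' + 1) hR hA.eqc H s1 fun x hx =>
      image_eq_zero_of_notMem_tsupport fun l => by linarith [r x l]
    rw [a0, integral_zero_measure, zero_add] at h1
    have h2 : ∫ x, χ x ∂A.η = ∫ _, (1 : ℝ) ∂A.η := by
      refine integral_congr_ae ?_
      filter_upwards [H.sη] with x hx
      exact (s3 x (not_lt.1 fun l => (hR' x l).ne' hx)).self_of_nhds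
    rw [h2] at h1
    simp only [integral_const, smul_eq_mul, mul_one] at h1
    exact Measure.measure_univ_eq_zero.1 ((measureReal_eq_zero_iff (measure_ne_top _ _)).1 h1)
  have l0 : A.l = 0 := by
    have h1 := H.id h k 0 0 1 hv
    rw [a0, b0, e0, c0] at h1
    simpa using h1
  rcases H.ne with k1 | k1 | k1 | k1
  · exact k1 a0
  · exact k1 e0
  · exact k1.ne' c0
  · exact k1.ne' l0

end Vale.Agent.P366DB
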