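import Vale.Agent.P366DB.Defs
import Vale.Agent.P366M.Apx

/-!
# P366DB: the bounds for the source in the charts
-/

open MeasureTheory Filter Topology Set
open scoped ContDiff
open Vale.Agent.P366M Vale.Agent.P366K
open Vale.Agent.P366F (Dat)

noncomputable section

namespace Vale.Agent.P366DB

variable {n : ℕ} {M : Type} [Mfe n M] {e : Ch n M} {φ : P366.Stmt.E n → ℝ}

/-- the weighted total variation of a chart function over a measurable set -/
theorem tv_chart (he : e ∈ At M) (g : Fld n M) (hφ : P366.Stmt.Smooth φ)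
    (hc : HasCompactSupport φ) {S : Set M} (hS : MeasurableSet S) :
    ∫ x in S, gn g (zx e φ) x * dens g x =
      ∫ y in {y | e.symm y ∈ S}, P366Z.gn (rep e g) φ y * P366Z.dens (rep e g) y := by
  have hv : ∀ y ∉ tsupport φ, φ y = 0 := fun y => image_eq_zero_of_notMem_tsupport
  have hs : Smooth (zx e φ) := cd_zx le_rfl he hc hv hφ
  have hm : MeasurableSet {y | e.symm y ∈ S} := (cont_symm he).measurable hS
  have h1 : ∀ x ∉ e.source, S.indicator (gn g (zx e φ)) x = 0 := fun x hx =>
    indicator_apply_eq_zero.2 fun _ => gn_zero (pd_zero_of_notMem fun k =>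
      hx (image_sub he _ (tsupport_zx he hc hv k)))
  have h2 := integral_dens_chart he g h1
  rw [← integral_indicator hS, ← integral_indicator hm]
  refine Eq.trans ?_ (h2.trans ?_)
  · refine integral_congr_ae (Eventually.of_forall fun x => ?_)
    by_cases hx : x ∈ S
    · simp only [indicator_of_mem hx]
    · simp only [indicator_of_notMem hx, zero_mul]
  · refine integral_congr_ae (Eventually.of_forall fun y => ?_)
    by_cases hy : e.symm y ∈ S
    · have hy' : y ∈ {y | e.symm y ∈ S} := hy
      have h3 := gn_rep he g (hs.diff (e.symm y))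
      rw [loc_zx he] at h3
      simp only [indicator_of_mem hy, indicator_of_mem hy', h3]
    · have hy' : y ∉ {y | e.symm y ∈ S} := hy
      simp only [indicator_of_notMem hy, indicator_of_notMem hy', zero_mul]

/-- **DB** from **SRC** and **BV** -/
theorem db_of (hS : SRC) (hB : BV) : DB := by
  intro n M _ Z m P κ R1 R2 ε c l Zc W _ π ν α β η hE hC hO H G hU hκ
  have B := (hB n M Z.D m P κ R1 R2 ε c l Zc W π ν α β η hE hC hO H).2
  have S := hS n M Z m P κ R1 R2 ε c l Zc W π ν α β η hE H G
  have nn : ∀ {e : Ch n M} {φ : P366.Stmt.E n → ℝ}, (∀ y, 0 ≤ φ y) → ∀ x, 0 ≤ zx e φ x :=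
    fun h x => indicator_nonneg (fun _ _ => h _) x
  have hF : Continuous Z.D.F := Z.D.dom.1.cont
  refine ⟨fun e he φ hφ hc h0 => ?_, fun V o c' hV hR e he φ hφ hc hs h0 => ?_⟩
  · have hv : ∀ y ∉ tsupport φ, φ y = 0 := fun y => image_eq_zero_of_notMem_tsupport
    have k := (B (zx e φ) (cd_zx le_rfl he hc hv hφ) (supp_zx he hc hv) (nn h0)).1
    rw [tv_chart he _ hφ hc (isClosed_le continuous_const hF).measurableSet] at k
    rw [S e he φ hφ hc, hκ]
    exact k
  · have hv : ∀ y ∉ tsupport φ, φ y = 0 := fun y => image_eq_zero_of_notMem_tsupport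
    have k := (B (zx e φ) (cd_zx le_rfl he hc hv hφ) (supp_zx he hc hv) (nn h0)).2 V o c'
      (hV.trans hU) hR fun x hx => by
        obtain ⟨y, hy, rfl⟩ := tsupport_zx he hc hv hx
        exact hs hy
    rw [tv_chart he _ hφ hc o.measurableSet.compl] at k
    have h1 : ∫ y in Z.Om e, Z.pφ e φ y = ∫ y, Z.pφ e φ y := by
      refine setIntegral_eq_integral_of_forall_compl_eq_zero fun y hy => ?_
      have hy' : y ∉ tsupport φ := fun k => hy (show 0 ≤ Z.D.F (e.symm y) from le_of_lt (hs k))
      have h2 : ∀ j, P366.Stmt.pd j φ y = 0 := fun j => by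
        rw [P366Z.pd_congr (notMem_tsupport_iff_eventuallyEq.1 hy')]
        exact P366Z.pd_const 0 j y
      simp [Dat.pφ, h2]
    rw [← h1, S e he φ hφ hc, hκ]
    exact k

end Vale.Agent.P366DB
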