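import Vale.Agent.P366K2.Hbr
import Mathlib.Topology.Compactification.OnePoint.Basic

/-!
# P366DB: the multiplier rule for four families of constraints
-/

open MeasureTheory Set Filter Topology

noncomputable section

namespace Vale.Agent.P366DB

section split

variable {A B K : Type} [MeasurableSpace A] [MeasurableSpace B] [MeasurableSpace K]
  {i : A → K} {j : B → K} (μ : Measure K) [IsFiniteMeasure μ]

theorem fin_comap (hi : MeasurableEmbedding i) : IsFiniteMeasure (μ.comap i) :=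
  ⟨by rw [hi.comap_apply]; exact measure_lt_top _ _⟩

omit [IsFiniteMeasure μ] in
theorem int_comap (hi : MeasurableEmbedding i) (f : K → ℝ) :
    ∫ a, f (i a) ∂μ.comap i = ∫ x in range i, f x ∂μ := by
  rw [← hi.map_comap, hi.integral_map]

omit [IsFiniteMeasure μ] in
theorem int_split (hi : MeasurableEmbedding i) (hj : MeasurableEmbedding j)
    (h : (range i)ᶜ = range j) {f : K → ℝ} (hf : Integrable f μ) :
    ∫ x, f x ∂μ = ∫ a, f (i a) ∂μ.comap i + ∫ b, f (j b) ∂μ.comap j := by
  rw [int_comap μ hi, int_comap μ hj, ← h, integral_add_compl hi.measurableSet_range hf]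

end split

theorem int_cpt {K : Type} [TopologicalSpace K] [CompactSpace K] [MeasurableSpace K]
    [BorelSpace K] (μ : Measure K) [IsFiniteMeasure μ] {f : K → ℝ} (hf : Continuous f) :
    Integrable f μ := by
  obtain ⟨C, hC⟩ := isCompact_univ.exists_bound_of_continuousOn hf.continuousOn
  exact .of_bound hf.aestronglyMeasurable C (.of_forall fun x => hC x (mem_univ x))

/-- **the multiplier rule** -/
theorem hb4 {W S T V : Type} [TopologicalSpace W] [T2Space W] [WeaklyLocallyCompactSpace W]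
    [MeasurableSpace W] [BorelSpace W] [TopologicalSpace S] [T2Space S] [CompactSpace S]
    [MeasurableSpace S] [BorelSpace S] [TopologicalSpace T] [T2Space T] [CompactSpace T]
    [MeasurableSpace T] [BorelSpace T] [Nonempty V] {f0 : V → W → ℝ} {l : V → ℝ} {f1 : V → S → ℝ}
    {f2 : V → T → ℝ} {f3 : V → ℝ} (c0 : ∀ v, Continuous (f0 v))
    (t0 : ∀ v, Tendsto (f0 v) (coclosedCompact W) (𝓝 (l v))) (c1 : ∀ v, Continuous (f1 v))
    (c2 : ∀ v, Continuous (f2 v))
    (hc : ∀ v w, ∀ s ∈ Icc (0 : ℝ) 1, ∃ u, (∀ x, s * f0 v x + (1 - s) * f0 w x ≤ f0 u x) ∧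
      s * l v + (1 - s) * l w ≤ l u ∧ (∀ x, s * f1 v x + (1 - s) * f1 w x ≤ f1 u x) ∧
      (∀ x, s * f2 v x + (1 - s) * f2 w x ≤ f2 u x) ∧ s * f3 v + (1 - s) * f3 w ≤ f3 u)
    (hn : ∀ v c, 0 < c → (∀ x, c ≤ f0 v x) → (∀ x, c ≤ f1 v x) → (∀ x, c ≤ f2 v x) → f3 v ≤ 0) :
    ∃ (α : Measure W) (η : Measure S) (β : Measure T) (c a : ℝ), IsFiniteMeasure α ∧
      IsFiniteMeasure η ∧ IsFiniteMeasure β ∧ 0 ≤ c ∧ 0 ≤ a ∧
      α.real univ + a + η.real univ + β.real univ + c = 1 ∧ (∀ v, Integrable (f0 v) α) ∧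
      ∀ v, ∫ x, f0 v x ∂α + a * l v + ∫ x, f1 v x ∂η + ∫ x, f2 v x ∂β + c * f3 v ≤ 0 := by
  let _ : MeasurableSpace (OnePoint W) := borel _
  have : BorelSpace (OnePoint W) := ⟨rfl⟩
  let _ : MeasurableSpace (OnePoint T) := borel _
  have : BorelSpace (OnePoint T) := ⟨rfl⟩
  let m1 : MeasurableSpace (S ⊕ OnePoint T) := borel _
  have : BorelSpace (S ⊕ OnePoint T) := ⟨rfl⟩
  let m2 : MeasurableSpace (OnePoint W ⊕ S ⊕ OnePoint T) := borel _
  have : BorelSpace (OnePoint W ⊕ S ⊕ OnePoint T) := ⟨rfl⟩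
  have tT : ∀ (f : T → ℝ) (y : ℝ), Tendsto f (coclosedCompact T) (𝓝 y) := fun f y => by
    rw [coclosedCompact_eq_cocompact, cocompact_eq_bot]
    exact tendsto_bot
  let g0 : V → C(OnePoint W, ℝ) := fun v => OnePoint.continuousMapMk ⟨f0 v, c0 v⟩ (l v) (t0 v)
  let g2 : V → C(OnePoint T, ℝ) := fun v => OnePoint.continuousMapMk ⟨f2 v, c2 v⟩ (f3 v) (tT _ _)
  let c : V → C(OnePoint W ⊕ S ⊕ OnePoint T, ℝ) := fun v =>
    ⟨Sum.elim (g0 v) (Sum.elim (f1 v) (g2 v)),
      (g0 v).continuous.sumElim ((c1 v).sumElim (g2 v).continuous)⟩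
  obtain ⟨μ, hμ, h⟩ := P366K2.hbr _ V c
    (fun v w s hs => by
      obtain ⟨u, h0, h1, h2, h3, h4⟩ := hc v w s hs
      refine ⟨u, ?_⟩
      rintro ((_ | x) | x | _ | x)
      exacts [h1, h0 x, h2 x, h4, h3 x])
    fun v => by
      by_contra! k
      obtain ⟨x, -, hx⟩ := isCompact_univ.exists_isMinOn ⟨Sum.inl OnePoint.infty, mem_univ _⟩
        (c v).continuous.continuousOn
      exact (k (.inr (.inr OnePoint.infty))).not_ge (hn v _ (k x)
        (fun y => hx (mem_univ (.inl (y : OnePoint W)))) (fun y => hx (mem_univ (.inr (.inl y))))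
        fun y => hx (mem_univ (.inr (.inr (y : OnePoint T)))))
  have e1 : MeasurableEmbedding (Sum.inl : _ → OnePoint W ⊕ S ⊕ OnePoint T) :=
    IsOpenEmbedding.inl.measurableEmbedding
  have e2 : MeasurableEmbedding (Sum.inr : _ → OnePoint W ⊕ S ⊕ OnePoint T) :=
    IsOpenEmbedding.inr.measurableEmbedding
  have e3 : MeasurableEmbedding (Sum.inl : _ → S ⊕ OnePoint T) :=
    IsOpenEmbedding.inl.measurableEmbedding
  have e4 : MeasurableEmbedding (Sum.inr : _ → S ⊕ OnePoint T) :=
    IsOpenEmbedding.inr.measurableEmbedding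
  have e5 : MeasurableEmbedding ((↑) : W → OnePoint W) :=
    OnePoint.isOpenEmbedding_coe.measurableEmbedding
  have e6 : MeasurableEmbedding ((↑) : T → OnePoint T) :=
    OnePoint.isOpenEmbedding_coe.measurableEmbedding
  have op : ∀ {X : Type} [TopologicalSpace X] [MeasurableSpace X] [MeasurableSpace (OnePoint X)]
      [BorelSpace (OnePoint X)] (ρ : Measure (OnePoint X)) [IsFiniteMeasure ρ],
      MeasurableEmbedding ((↑) : X → OnePoint X) → ∀ f : OnePoint X → ℝ, Continuous f →
      ∫ x, f x ∂ρ = ∫ x : X, f x ∂ρ.comap (↑) + ρ.real {OnePoint.infty} * f OnePoint.infty :=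
    fun ρ _ e f hf => by
      have ms := e.measurableSet_range.compl
      rw [OnePoint.compl_range_coe] at ms
      rw [int_comap ρ e, ← integral_add_compl e.measurableSet_range (int_cpt ρ hf),
        OnePoint.compl_range_coe, setIntegral_congr_fun (g := fun _ => f OnePoint.infty) ms
          fun x hx => congrArg f hx, setIntegral_const, smul_eq_mul]
  have := fin_comap μ e1
  have := fin_comap μ e2
  have := fin_comap (μ.comap Sum.inr) e3
  have := fin_comap (μ.comap Sum.inr) e4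
  have key : ∀ f : OnePoint W ⊕ S ⊕ OnePoint T → ℝ, Continuous f → ∫ x, f x ∂μ =
      ∫ x : W, f (.inl x) ∂(μ.comap Sum.inl).comap (↑) +
        (μ.comap Sum.inl).real {OnePoint.infty} * f (.inl OnePoint.infty) +
      ∫ x, f (.inr (.inl x)) ∂(μ.comap Sum.inr).comap Sum.inl +
      ∫ x : T, f (.inr (.inr x)) ∂((μ.comap Sum.inr).comap Sum.inr).comap (↑) +
        ((μ.comap Sum.inr).comap Sum.inr).real {OnePoint.infty} *
          f (.inr (.inr OnePoint.infty)) := fun f hf => by
    rw [int_split μ e1 e2 compl_range_inl (int_cpt μ hf), int_split (μ.comap Sum.inr) e3 e4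
      compl_range_inl (int_cpt _ (f := fun x => f (.inr x)) (hf.comp continuous_inr)),
      op _ e5 (fun x => f (.inl x)) (hf.comp continuous_inl),
      op _ e6 (fun x => f (.inr (.inr x))) ((hf.comp continuous_inr).comp continuous_inr)]
    simp only [add_assoc]
  have f5 := fin_comap (μ.comap Sum.inl) e5
  refine ⟨_, _, _, _, _, f5, inferInstance, fin_comap _ e6, measureReal_nonneg, measureReal_nonneg,
    by simpa using (key (fun _ => 1) continuous_const).symm, fun v => ?_,
    fun v => (key _ (c v).continuous).ge.trans (h v)⟩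
  obtain ⟨C, hC⟩ := isCompact_univ.exists_bound_of_continuousOn (g0 v).continuous.continuousOn
  exact .of_bound (c0 v).aestronglyMeasurable C (.of_forall fun x => hC x (mem_univ _))

end Vale.Agent.P366DB
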