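import Vale.Agent.P366MM.Lb
import Mathlib.Topology.ShrinkingLemma

/-!
# P366DB: the unit vectors over the domain
-/

open MeasureTheory Metric Set Filter Topology Matrix
open scoped ContDiff
open Vale.Agent.P366M
open Vale.Agent.P366MM (sq sq_smul)

noncomputable section

namespace Vale.Agent.P366DB

variable {n : ℕ} {M : Type} [Mfe n M] {e : Ch n M} {x : M}

theorem cont_piece {N : ℕ} {Y : Type} [TopologicalSpace Y] {S : Set (Fin N × Y)}
    {G : Fin N → Y → ℝ} (h : ∀ i, ContinuousOn (G i) {y | (i, y) ∈ S}) :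
    Continuous fun w : S => G w.1.1 w.1.2 := by
  refine continuousOn_iff_continuous_restrict.1 (fun p hp => ?_ :
    ContinuousOn (fun p : Fin N × Y => G p.1 p.2) S)
  have h1 : ContinuousWithinAt (fun q : Fin N × Y => G p.1 q.2) (S ∩ {q | q.1 = p.1}) p :=
    ContinuousWithinAt.comp (f := Prod.snd) (h p.1 p.2 hp) continuous_snd.continuousWithinAt
      fun q hq => by
        have h2 : q.1 = p.1 := hq.2
        exact h2 ▸ hq.1
  refine (h1.congr (fun q hq => ?_) rfl).mono_of_mem_nhdsWithin (inter_mem_nhdsWithin S ?_)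
  · have h2 : q.1 = p.1 := hq.2
    rw [h2]
  · exact ((isOpen_discrete {p.1}).preimage continuous_fst).mem_nhds rfl

theorem sq_J (hx : x ∈ e.source) (T : Fld n M) (u : Fin n → ℝ) :
    sq T x (J e (e x) *ᵥ u) = ∑ a, ∑ b, rep e T (e x) a b * u a * u b := by
  refine (quad_dot (mat T x) _ _).trans
    (Eq.trans ?_ (quad_dot (P366.Stmt.mat (rep e T) (e x)) u u).symm)
  rw [mat_rep, e.left_inv hx, ← mulVec_mulVec, ← mulVec_mulVec, dotProduct_mulVec u,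
    vecMul_transpose]

theorem dot_J (hx : x ∈ e.source) (ξ : Fin n → M → ℝ) (u : Fin n → ℝ) :
    ∑ j, ξ j x * (J e (e x) *ᵥ u) j = ∑ a, repC e ξ a (e x) * u a := by
  have h1 := congrArg (· ⬝ᵥ u) (repC_eq e ξ (e x))
  simp only [e.left_inv hx, mulVec_transpose, ← dotProduct_mulVec] at h1
  exact h1.symm

theorem exists_cover (M : Type) [Mfe n M] : ∃ (N : ℕ) (c : Fin N → Ch n M) (K : Fin N → Set M),
    (∀ i, c i ∈ At M) ∧ (∀ x, ∃ i, x ∈ K i) ∧ (∀ i, IsClosed (K i)) ∧ ∀ i, K i ⊆ (c i).source := by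
  obtain ⟨N, c, -, hc⟩ := (Mfs.fin (M := M)).fin_param
  obtain ⟨K, k1, k2, k3⟩ := exists_iUnion_eq_closed_subset (u := fun i => (c i).source)
    (fun i => (c i).open_source) (fun _ => toFinite _) (eq_univ_of_forall fun x => by
      obtain ⟨i, hi⟩ : ch x ∈ range c := hc ▸ mem_range_self x
      exact mem_iUnion.2 ⟨i, hi ▸ mem_ch x⟩)
  refine ⟨N, c, K, fun i => ?_, fun x => mem_iUnion.1 (k1 ▸ mem_univ x : x ∈ ⋃ i, K i), k2, k3⟩
  obtain ⟨x, hx⟩ : c i ∈ range fun x : M => ch x := hc ▸ mem_range_self i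
  exact hx ▸ ch_mem x

theorem exists_pre (D : Exterior n M) : ∃ (N : ℕ) (S : Set (Fin N × M × (Fin n → ℝ)))
    (ν : S → Fin n → ℝ), IsClosed S ∧ (∀ p ∈ S, ‖p.2.2‖ = 1) ∧
    (∀ w, 0 < sq D.g w.1.2.1 (ν w)) ∧ (∀ w : S, 0 ≤ D.F w.1.2.1) ∧
    (∀ ξ, CC 0 ξ → Continuous fun w : S => ∑ j, ξ j w.1.2.1 * ν w j) ∧
    (∀ T, SmT T → Continuous fun w : S => sq T w.1.2.1 (ν w)) ∧
    ∀ x, 0 ≤ D.F x → ∀ v ≠ 0, ∃ w : S, w.1.2.1 = x ∧ ∃ t : ℝ, 0 < t ∧ ν w = t • v := by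
  obtain ⟨N, c, K, c1, k1, k2, k3⟩ := exists_cover M
  obtain ⟨S, s1⟩ : ∃ S : Set (Fin N × M × (Fin n → ℝ)),
      ∀ p, p ∈ S ↔ p.2.1 ∈ K p.1 ∧ 0 ≤ D.F p.2.1 ∧ ‖p.2.2‖ = 1 := ⟨{p | _}, fun _ => Iff.rfl⟩
  have s2 : ∀ w : S, w.1.2.1 ∈ (c w.1.1).source := fun w => k3 _ ((s1 _).1 w.2).1
  have ce : ∀ i, ContinuousOn (fun y : M × (Fin n → ℝ) => c i y.1) {y | (i, y) ∈ S} := fun i =>
    (c i).continuousOn.comp continuousOn_fst fun y hy => k3 i ((s1 _).1 hy).1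
  have cu : ∀ i a, ContinuousOn (fun y : M × (Fin n → ℝ) => y.2 a) {y | (i, y) ∈ S} := fun i a =>
    ((continuous_apply a).comp continuous_snd).continuousOn
  refine ⟨N, S, fun w => J (c w.1.1) (c w.1.1 w.1.2.1) *ᵥ w.1.2.2, ?_,
    fun p hp => ((s1 p).1 hp).2.2, fun w => ?_, fun w => ((s1 _).1 w.2).2.1, fun ξ hξ => ?_,
    fun T hT => ?_, fun x hx v hv => ?_⟩
  · have : S = (⋃ i, {i} ×ˢ K i ×ˢ univ) ∩ ({p | 0 ≤ D.F p.2.1} ∩ {p | ‖p.2.2‖ = 1}) := by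
      ext p
      simp [s1]
    rw [this]
    exact (isClosed_iUnion_of_finite fun i => isClosed_singleton.prod ((k2 i).prod
      isClosed_univ)).inter ((isClosed_le continuous_const (D.dom.1.cont.comp
        continuous_snd.fst)).inter (isClosed_eq continuous_snd.snd.norm continuous_const))
  · rw [sq_J (s2 w)]
    exact (D.met.rep (c1 _)).g_pos _ fun k => by simpa [k] using ((s1 _).1 w.2).2.2
  · have h1 : ∀ i, ContinuousOn (fun y : M × (Fin n → ℝ) => ∑ a, repC (c i) ξ a (c i y.1) * y.2 a)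
        {y | (i, y) ∈ S} := fun i => continuousOn_finsetSum _ fun a _ =>
      ((hξ _ (c1 i) a).continuous.comp_continuousOn (ce i)).mul (cu i a)
    exact (cont_piece h1).congr fun w => (dot_J (s2 w) ξ w.1.2.2).symm
  · have h1 : ∀ i, ContinuousOn (fun y : M × (Fin n → ℝ) =>
        ∑ a, ∑ b, rep (c i) T (c i y.1) a b * y.2 a * y.2 b) {y | (i, y) ∈ S} := fun i =>
      continuousOn_finsetSum _ fun a _ => continuousOn_finsetSum _ fun b _ =>
        (((hT _ (c1 i) a b).continuous.comp_continuousOn (ce i)).mul (cu i a)).mul (cu i b)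
    exact (cont_piece h1).congr fun w => (sq_J (s2 w) T w.1.2.2).symm
  · obtain ⟨i, hi⟩ := k1 x
    obtain ⟨u, hu⟩ : ∃ u, J (c i) (c i x) *ᵥ u = v := ⟨(J (c i) (c i x))⁻¹ *ᵥ v, by
      rw [mulVec_mulVec, J_mul_inv (c1 i), one_mulVec]⟩
    have u0 : 0 < ‖u‖ := norm_pos_iff.2 fun k => hv (by rw [← hu, k, mulVec_zero])
    exact ⟨⟨(i, x, ‖u‖⁻¹ • u), (s1 _).2 ⟨hi, hx, by simp [norm_smul, u0.ne']⟩⟩, rfl, ‖u‖⁻¹,
      inv_pos.2 u0, (mulVec_smul _ _ _).trans (congrArg _ hu)⟩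

/-- **the bundle of the unit vectors** -/
theorem exists_bundle (D : Exterior n M) : ∃ (N : ℕ) (S : Set (Fin N × M × (Fin n → ℝ)))
    (ν : S → Fin n → ℝ), IsClosed S ∧ (∀ R, IsCompact {w : S | ‖px w.1.2.1‖ ≤ R}) ∧
    (∀ w, sq D.g w.1.2.1 (ν w) = 1) ∧ (∀ w : S, 0 ≤ D.F w.1.2.1) ∧
    (∀ ξ, CC 0 ξ → Continuous fun w : S => ∑ j, ξ j w.1.2.1 * ν w j) ∧
    (∀ T, SmT T → Continuous fun w : S => sq T w.1.2.1 (ν w)) ∧
    ∀ x, 0 ≤ D.F x → ∀ v, sq D.g x v = 1 → ∃ w : S, w.1.2.1 = x ∧ ν w = v := by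
  obtain ⟨N, S, ν, cl, s1, q0, s2, cd, cq, s3⟩ := exists_pre D
  have ci := (cq _ D.met.sm).sqrt.inv₀ fun w => (Real.sqrt_pos.2 (q0 w)).ne'
  refine ⟨N, S, fun w a => (√(sq D.g w.1.2.1 (ν w)))⁻¹ * ν w a, cl, fun R => ?_, fun w => ?_,
    s2, fun ξ hξ => ?_, fun T hT => ?_, fun x hx v hv => ?_⟩
  · exact (cl.isClosedEmbedding_subtypeVal.isCompact_preimage (isCompact_univ.prod
      ((isCompact_px M R).prod (isCompact_sphere 0 1)))).of_isClosed_subset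
      (isClosed_le (cont_npx.comp continuous_subtype_val.snd.fst) continuous_const)
      fun w hw => ⟨mem_univ _, hw, mem_sphere_zero_iff_norm.2 (s1 _ w.2)⟩
  · rw [sq_smul, inv_pow, Real.sq_sqrt (q0 w).le, inv_mul_cancel₀ (q0 w).ne']
  · simp only [mul_left_comm _ (√_)⁻¹, ← Finset.mul_sum]
    exact ci.mul (cd ξ hξ)
  · simp only [sq_smul]
    exact (ci.pow 2).mul (cq T hT)
  · obtain ⟨w, rfl, t, t0, ht⟩ := s3 x hx v fun k => by simp [k, P366MM.sq] at hv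
    refine ⟨w, rfl, funext fun a => ?_⟩
    have h1 : sq D.g w.1.2.1 (t • v) = t ^ 2 := (sq_smul D.g _ _ v).trans (by rw [hv, mul_one])
    simp only [ht, h1, Real.sqrt_sq t0.le, Pi.smul_apply, smul_eq_mul, inv_mul_cancel_left₀ t0.ne']

end Vale.Agent.P366DB
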