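import Vale.Agent.P366DB.Mu1
import Vale.Agent.P366DB.Mu2
import Vale.Agent.P366DB.Mu3

/-!
# P366DB: the multipliers exist
-/

open MeasureTheory Metric Set Filter Topology
open scoped ContDiff
open Vale.Agent.P366M Vale.Agent.P366K
open Vale.Agent.P366MM

noncomputable section

namespace Vale.Agent.P366DB

variable {n : ℕ} {M : Type} [Mfe n M]

/-- the variations -/
structure Vr (D : Exterior n M) (ε R1 : ℝ) (Z : Fin n → M → ℝ) where
  h : Fld n M
  k : Fld n M
  dE : ℝ
  dP : Fin n → ℝ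
  l : ℝ
  χ : M → ℝ
  Y : Fin n → M → ℝ
  s : ℝ
  var : Var D ε h k dE dP l
  cχ : Continuous χ
  χ0 : ∀ x, 0 ≤ χ x
  χs : ∃ R, ∀ x, R < ‖px x‖ → χ x = 0
  tf : Tf R1 Z Y

theorem wt_pos (ε : ℝ) (x : M) : 0 < wt ε x := Real.rpow_pos_of_pos (by positivity) _

theorem cont_wt (ε : ℝ) : Continuous (wt ε : M → ℝ) :=
  (continuous_const.add (cont_npx.pow 2)).rpow_const fun x =>
    .inl (show (1 + ‖px x‖ ^ 2 : ℝ) ≠ 0 by positivity)

theorem en_nonneg {D : Exterior n M} (hD : D.DEC) {x : M} (hx : 0 ≤ D.F x) {e : Fin n → ℝ}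
    (he : sq D.g x e = 1) : 0 ≤ en D.g D.K x e := by
  have h1 := (neg_le_abs _).trans (cs D.met x (fun j => mom D.g D.K j x) e he.le)
  have h2 := hD x hx
  unfold covNorm at h2
  unfold en
  linarith

theorem gp_eq (g : Fld n M) (hg : ∀ x i j, g x i j = g x j i) (Y : Fin n → M → ℝ) (x : M)
    (e : Fin n → ℝ) : gp g Y x e = ∑ j, (∑ k, g x j k * Y k x) * e j := by
  rw [gp, Finset.sum_comm]
  simp only [Finset.sum_mul, hg x _ _]

theorem mult (hN : NI) (hR : REP) : MULT := by
  intro n M _ D m P κ R1 R2 ε Z hE hC hε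
  obtain ⟨N, S, ν, cl, cp, un, dm0, cd, cq, sj⟩ := exists_bundle D
  have := cl.locallyCompactSpace
  have r0 : 0 < R1 := by linarith [hC.R0, R0_ge M]
  obtain ⟨π, hπ⟩ : ∃ π : S → M, π = fun w => w.1.2.1 := ⟨_, rfl⟩
  simp only [← congrFun hπ] at cp un dm0 cd cq sj
  have cπ : Continuous π := hπ ▸ continuous_subtype_val.snd.fst
  obtain ⟨RF, hF⟩ := D.dom.2.2.2
  have c0 : IsClosed {x | D.F x = 0} := isClosed_eq D.dom.1.cont continuous_const
  have : CompactSpace {x | D.F x = 0} := isCompact_iff_compactSpace.1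
    ((isCompact_px M RF).of_isClosed_subset c0 fun x hx => not_lt.1 fun k => (hF x k).ne' hx)
  have : CompactSpace {w | ‖px (π w)‖ ≤ R2} := isCompact_iff_compactSpace.1 (cp R2)
  have sK : Sym D.K := ⟨D.smK, D.syK⟩
  have rp := fun v : Vr D ε R1 Z => hR n M D.g D.K v.h v.k D.F D.met sK v.var.sh v.var.sk D.dom.1
  have cen : Continuous fun w => en D.g D.K (π w) (ν w) :=
    ((D.met.sm_mu D.smK).cont.comp cπ).add (cd _ ((D.met.sm_mom D.smK).of_le zero_le))
  have car : ∀ h, Sym h → Continuous fun w => ar D.g h (π w) (ν w) := fun h hh =>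
    (((D.met.sm_tr hh.sm).cont.comp cπ).sub (cq h hh.sm)).div_const 2
  have cgp : ∀ Y, CV ∞ Y → Continuous fun w => gp D.g Y (π w) (ν w) := fun Y hY => by
    simp only [gp_eq D.g D.met.sy]
    exact cd _ ((D.met.sm.lower le_rfl hY).of_le zero_le)
  let v0 : Vr D ε R1 Z := ⟨_, _, _, _, _, fun _ => 0, _, 0, var_zero hR, continuous_const,
    fun _ => le_rfl, ⟨0, fun _ _ => rfl⟩, tf_zero⟩
  have : Nonempty (Vr D ε R1 Z) := ⟨v0⟩
  obtain ⟨α, η, β, c, a, fα, fη, fβ, hc, ha, tot, -, T⟩ := hb4 (V := Vr D ε R1 Z)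
    (f0 := fun v w => wt ε (π w) * (v.χ (π w) * en D.g D.K (π w) (ν w) +
      lin D.g D.K v.h v.k (π w) (ν w))) (l := fun v => v.l)
    (f1 := fun v (x : {x | D.F x = 0}) => -dth D.g D.K D.F v.h v.k x)
    (f2 := fun v (w : {w | ‖px (π w)‖ ≤ R2}) => ar D.g v.h (π w) (ν w) - gp D.g v.Y (π w) (ν w) + v.s)
    (f3 := fun v => κ * (Lf D R1 v.Y - v.s * D.Amin.toReal) - dm m P v.dE v.dP)
    (fun v => ((cont_wt ε).comp cπ).mul (((v.cχ.comp cπ).mul cen).add
      (((rp v).2.1.cont.comp cπ).add (cd _ ((rp v).2.2.1.of_le zero_le)))))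
    (fun v => Metric.tendsto_nhds.2 fun δ hδ => by
      obtain ⟨R, hR⟩ := v.var.lim _ (half_pos hδ)
      obtain ⟨R', hR'⟩ := v.χs
      rw [coclosedCompact_eq_cocompact]
      filter_upwards [(cp (max R R')).compl_mem_cocompact] with w hw
      have hw' : max R R' < ‖px (π w)‖ := not_le.1 hw
      rw [hR' _ ((le_max_right _ _).trans_lt hw'), zero_mul, zero_add]
      exact (hR _ ((le_max_left _ _).trans_lt hw') _ (un w)).trans_lt (half_lt_self hδ))
    (fun v => ((rp v).2.2.2.1.comp_continuous continuous_subtype_val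
      fun x => D.dom.2.1 x.1 x.2).neg)
    (fun v => (((car _ v.var.sh).sub (cgp _ v.tf.sm)).comp continuous_subtype_val).add
      continuous_const)
    (fun v w s hs => by
      have h1 := sub_nonneg.2 hs.2
      obtain ⟨R, hR1⟩ := v.χs
      obtain ⟨R', hR2⟩ := w.χs
      refine ⟨⟨_, _, _, _, _, fun x => s * v.χ x + (1 - s) * w.χ x, _, s * v.s + (1 - s) * w.s,
        var_lc hR s (1 - s) v.var w.var, (continuous_const.mul v.cχ).add
          (continuous_const.mul w.cχ), fun x => add_nonneg (mul_nonneg hs.1 (v.χ0 x))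
          (mul_nonneg h1 (w.χ0 x)), ⟨max R R', fun x hx => by
            simp [hR1 x ((le_max_left _ _).trans_lt hx), hR2 x ((le_max_right _ _).trans_lt hx)]⟩,
        tf_lc hs.1 h1 v.tf w.tf⟩, fun x => le_of_eq ?_, le_rfl, fun x => le_of_eq ?_,
        fun x => le_of_eq ?_, ?_⟩
      · simp only [lin_lc hR s (1 - s) v.var.sh v.var.sk w.var.sh w.var.sk]
        ring
      · simp only [dth_lc hR s (1 - s) v.var.sh v.var.sk w.var.sh w.var.sk x.2]
        ring
      · simp only [ar_lc, gp_lc]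
        ring
      · have := mul_le_mul_of_nonneg_left (lf_lc (D := D) hs.1 h1 r0 v.tf.sm w.tf.sm) hE.κ0.le
        simp only [dm_lc]
        linarith)
    fun v c hc h0 h1 h2 => by
      obtain ⟨R, hR1⟩ := v.χs
      obtain ⟨C, -, hC'⟩ := bdd_of_out (R := R) (C := 0) v.cχ fun y hy => by simp [hR1 y hy]
      refine sub_nonpos.2 (hN n M D m P κ R1 R2 ε C c v.s v.dE Z v.Y v.h v.k v.dP hE hC v.tf
        v.var.toVar0 hε hc (fun x hx e he => ?_) (fun x hx => h1 ⟨x, hx⟩) fun x hx e he => ?_)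
      · obtain ⟨w, rfl, rfl⟩ := sj x hx e he
        exact (h0 w).trans (mul_le_mul_of_nonneg_left (add_le_add_left (mul_le_mul_of_nonneg_right
          ((le_abs_self _).trans (hC' _)) (en_nonneg hE.dec hx he)) _) (wt_pos _ _).le)
      · obtain ⟨w, rfl, rfl⟩ := sj x hx.1 e he
        exact h2 ⟨w, hx.2⟩
  have m1 : MeasurableSet {w | ‖px (π w)‖ ≤ R2} := (cp R2).measurableSet
  have e1 := MeasurableEmbedding.subtype_coe m1
  have e2 := MeasurableEmbedding.subtype_coe c0.measurableSet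
  have z1 : ∀ x e, ar D.g (fun _ _ _ => 0) x e = 0 := fun x e => by simp [ar, tr]
  have z2 : ∀ x e, gp D.g (fun _ _ => 0) x e = 0 := fun x e => by simp [gp]
  have z3 : dm m P 0 (fun _ => 0) = 0 := by simp [dm]
  have z4 : ∀ x : {x | D.F x = 0}, dth D.g D.K D.F (fun _ _ _ => 0) (fun _ _ _ => 0) x = 0 :=
    fun x => dth_zero hR x.2
  have ms : β.real univ = c * (κ * D.Amin.toReal) := by
    have h1 := T { v0 with s := 1 }
    have h2 := T { v0 with s := -1 }
    simp [v0, z1, z2, z3, z4, lin_zero hR, lf_zero r0] at h1 h2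
    linarith
  have T' : ∀ h k dE dP l', Var D ε h k dE dP l' →
      ∫ w, wt ε (π w) * lin D.g D.K h k (π w) (ν w) ∂α + a * l' -
        ∫ x, dth D.g D.K D.F h k x ∂η + ∫ w, ar D.g h (π w) (ν w) ∂β ≤ c * dm m P dE dP :=
    fun h k dE dP l' hv => by
      have h1 := T { v0 with h := h, k := k, dE := dE, dP := dP, l := l', var := hv }
      simp only [v0, z2, zero_mul, zero_add, lf_zero r0, sub_zero, add_zero, mul_zero, zero_sub,
        integral_neg] at h1
      linarith
  refine ⟨S, inferInstance, π, ν, α, β.map Subtype.val, η.map Subtype.val, c, a, cπ.measurable, un, dm0,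
    fun ξ hξ => (cd ξ hξ).measurable, fun T hT => (cq T hT).measurable, fα, inferInstance,
    inferInstance, (e1.ae_map_iff (p := fun w => ‖px (π w)‖ ≤ R2)).2 (.of_forall fun w => w.2),
    (e2.ae_map_iff (p := fun x => D.F x = 0)).2 (.of_forall fun x => x.2), hc, ha, ?_, ?_, ?_, fun Y hY => ?_,
    fun h k dE dP l' hv => ?_⟩
  · by_contra! k
    obtain ⟨rfl, k2, k3, k4⟩ := k
    rw [Measure.map_eq_zero_iff e2.measurable.aemeasurable] at k2
    rw [k2, ms, le_antisymm k3 hc, le_antisymm k4 ha] at tot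
    simp at tot
  · have k : ∀ j : ℕ, ∀ᵐ w ∂α, ‖px (π w)‖ ≤ j + 1 → en D.g D.K (π w) (ν w) = 0 := fun j => by
      have j0 : (0 : ℝ) < j + 1 := by positivity
      have h1 := T { v0 with
        χ := cut (j + 1), cχ := (sm_cut _).cont, χ0 := cut_nonneg _,
        χs := ⟨2 * (j + 1), fun x hx => cut_zero j0 hx.le⟩ }
      simp only [v0, z1, z2, z3, z4, lin_zero hR, lf_zero r0, zero_mul, add_zero, mul_zero,
        sub_zero, neg_zero, integral_zero] at h1
      have h2 : ∀ w, 0 ≤ wt ε (π w) * (cut (j + 1) (π w) * en D.g D.K (π w) (ν w)) := fun w =>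
        mul_nonneg (wt_pos _ _).le (mul_nonneg (cut_nonneg _ _) (en_nonneg hE.dec (dm0 w) (un w)))
      have h3 : Integrable (fun w => wt ε (π w) * (cut (j + 1) (π w) * en D.g D.K (π w) (ν w))) α :=
        (((cont_wt ε).comp cπ).mul (((sm_cut _).cont.comp cπ).mul
          cen)).integrable_of_hasCompactSupport (.intro (cp (2 * (j + 1))) fun w hw => by
            simp [cut_zero j0 (not_le.1 hw).le])
      filter_upwards [(integral_eq_zero_iff_of_nonneg h2 h3).1 (le_antisymm h1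
        (integral_nonneg h2))] with w hw hj
      simpa [cut_one hj, (wt_pos ε (π w)).ne'] using hw
    filter_upwards [ae_all_iff.2 k] with w hw
    obtain ⟨j, hj⟩ := exists_nat_ge ‖px (π w)‖
    exact hw j (by linarith)
  · rw [← ms, measureReal_def, e1.map_apply, preimage_univ, measureReal_def]
  · have h1 := T { v0 with Y := Y, tf := hY }
    simp only [v0, z1, z3, z4, lin_zero hR, zero_mul, add_zero, mul_zero, sub_zero, neg_zero,
      integral_zero, zero_sub, integral_neg, zero_add] at h1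
    rw [e1.integral_map]
    linarith
  · have h1 := T' h k dE dP l' hv
    have h2 := T' _ _ _ _ _ (var_lc hR (-1) 0 hv hv)
    have z5 : ∀ x : {x | D.F x = 0}, dth D.g D.K D.F (lc (-1) 0 h h) (lc (-1) 0 k k) x =
        -1 * dth D.g D.K D.F h k x + 0 * dth D.g D.K D.F h k x := fun x =>
      dth_lc hR (-1) 0 hv.sh hv.sk hv.sh hv.sk x.2
    simp only [lin_lc hR (-1) 0 hv.sh hv.sk hv.sh hv.sk, z5, ar_lc, dm_lc] at h2
    simp only [zero_mul, add_zero, neg_mul, one_mul, mul_neg, integral_neg] at h2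
    rw [e1.integral_map, e2.integral_map]
    linarith

end Vale.Agent.P366DB
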